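import Crest.Agent.X212.Hp13.Gr
import Crest.Agent.X212.Sw.One1
import Crest.Agent.X212.Sw.One
import Crest.Agent.X212.Geo7.Abs
import Crest.Agent.X212.Cyl58.Cpt
import Crest.Agent.X212.Sm25.BuA
import Crest.Agent.X212.Sm25.BuN
import Crest.Agent.X212.Sm25.BuB
import Crest.Agent.X212.Rax71.Fl
import Crest.Agent.X212.Rax71.Main
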